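/-
Helper44 — S0175 project: model glue.  From a two-shell instance on the bare model space
`MS k = ℂ × ℝ^k` (cost `tripleCostM s`, Euclidean distance `dM`) whose marginal has a smooth
density `ρ` we get the goal on the inner-product model `WithLp 2 (MS k)` and hence the frozen
statement on `EuclideanSpace ℝ (Fin d)`, `d = k + 2`.
-/
import Crest.Agent.Helper32.GeomDefs
import Crest.Agent.Helper4.Geom.TR
import Crest.Agent.Helper35.TwoShell.Glue
import Crest.Agent.Helper52.OT3.Transfer
import Crest.Agent.Helper62.TwoShell.TSB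

set_option autoImplicit false
open MeasureTheory Set Filter Topology
open scoped ENNReal ContDiff
open Crest.AnalysisR.OT
open Crest.Agent.Helper32

namespace Crest.Agent.Helper44

/-- If `ρ₁ ρ₂` have smooth square roots and disjoint supports, `√(ρ₁ + ρ₂)` is smooth. -/
theorem contDiff_sqrt_add_of_mul_eq_zero {V : Type*} [NormedAddCommGroup V] [NormedSpace ℝ V]
    {ρ₁ ρ₂ : V → ℝ}
    (hs1 : ContDiff ℝ ∞ (fun x => Real.sqrt (ρ₁ x)))
    (hs2 : ContDiff ℝ ∞ (fun x => Real.sqrt (ρ₂ x))) (hdisj : ∀ x, ρ₁ x * ρ₂ x = 0) :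
    ContDiff ℝ ∞ (fun x => Real.sqrt (ρ₁ x + ρ₂ x)) := by
  have : (fun x => Real.sqrt (ρ₁ x + ρ₂ x)) =
      fun x => Real.sqrt (ρ₁ x) + Real.sqrt (ρ₂ x) := by
    funext x
    rcases mul_eq_zero.1 (hdisj x) with h | h
    · simp [h]
    · simp [h]
  rw [this]
  exact hs1.add hs2

section Model

variable (k : ℕ)

/-- the measurable equivalence between the inner-product model and the bare model -/
noncomputable def eM : WithLp 2 (MS k) ≃ᵐ MS k := (MeasurableEquiv.toLp 2 (MS k)).symm

theorem eM_apply (x : WithLp 2 (MS k)) : eM k x = WithLp.ofLp x := rfl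

theorem eM_symm_apply (x : MS k) : (eM k).symm x = WithLp.toLp 2 x := rfl

theorem measurePreserving_eM : MeasurePreserving (eM k) volume volume :=
  WithLp.volume_preserving_symm_measurableEquiv_toLp_prod ℂ (EuclideanSpace ℝ (Fin k))

theorem norm_sub_eq_dM (x y : WithLp 2 (MS k)) : ‖x - y‖ = dM (eM k x) (eM k y) := by
  rw [WithLp.prod_norm_eq_of_L2]
  rfl

theorem pairCost_eq_pairCostM (s : ℝ) (x y : WithLp 2 (MS k)) :
    pairCost s x y = pairCostM s (eM k x) (eM k y) := by
  unfold pairCost pairCostM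
  rw [norm_sub_eq_dM]

theorem tripleCost_eq_tripleCostM (s : ℝ) (x y z : WithLp 2 (MS k)) :
    tripleCost s (x, y, z) = tripleCostM s (eM k x, eM k y, eM k z) := by
  unfold tripleCost tripleCostM
  simp only [pairCost_eq_pairCostM]

/-- transport of a density along the volume preserving equivalence `eM` -/
theorem measOfDensity_map_eM_symm (ρ : MS k → ℝ) (hρ : Measurable ρ) :
    (measOfDensity ρ).map (eM k).symm = measOfDensity (fun x => ρ (eM k x)) := by
  apply Measure.ext
  intro S hS
  unfold measOfDensity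
  rw [(eM k).symm.map_apply, withDensity_apply _ ((eM k).symm.measurable hS),
    withDensity_apply _ hS]
  have hpre : (eM k).symm ⁻¹' S = (eM k) '' S := by
    ext y
    constructor
    · intro hy
      exact ⟨(eM k).symm y, hy, by simp⟩
    · rintro ⟨x, hx, rfl⟩
      simpa using hx
  have h1 := (measurePreserving_eM k).setLIntegral_comp_preimage (s := (eM k) '' S)
    ((eM k).measurableSet_image.2 hS) (f := fun y => ENNReal.ofReal (ρ y))
    hρ.ennreal_ofReal
  rw [hpre, ← h1, (eM k).preimage_image]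

variable {k}

theorem goal_of_geom (s : ℝ) {Y : Type*} [MeasurableSpace Y] [StandardBorelSpace Y]
    (ν : Measure Y) [IsFiniteMeasure ν] (ΦA ΦB : Y × ℝ → MS k) (g : Y → ℝ) (u : MS k → ℝ)
    (h : TwoShellHyp ν ΦA ΦB g (tripleCostM s) u)
    (ρ : MS k → ℝ) (hρ0 : ∀ x, 0 ≤ ρ x) (hρs : ContDiff ℝ ∞ ρ) (hρc : HasCompactSupport ρ)
    (hsq : ContDiff ℝ ∞ (fun x => Real.sqrt (ρ x)))
    (hμ : tsμ ν ΦA ΦB = measOfDensity ρ) :
    Crest.Agent.Helper52.OT3.Goal (WithLp 2 (MS k)) s := by
  -- the transported hypotheses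
  have h' := Crest.Agent.Helper4.twoShellHyp_transfer ν ΦA ΦB g (tripleCostM s) u h (eM k)
    (tripleCost s) (fun x y z => tripleCost_eq_tripleCostM k s x y z)
  -- the continuous linear equivalence underlying `eM`
  let L := WithLp.prodContinuousLinearEquiv 2 ℝ ℂ (EuclideanSpace ℝ (Fin k))
  have hL : ∀ x, (L x : MS k) = eM k x := fun x => rfl
  have hρm : Measurable ρ := hρs.continuous.measurable
  -- the transported marginal
  have hμ' : measOfDensity (fun x => ρ (eM k x)) =
      tsμ ν (fun p => (eM k).symm (ΦA p)) (fun p => (eM k).symm (ΦB p)) := by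
    rw [← measOfDensity_map_eM_symm k ρ hρm, ← hμ]
    unfold tsμ
    rw [Measure.map_add _ _ (eM k).symm.measurable, Measure.map_smul,
      Measure.map_map (eM k).symm.measurable h.measA,
      Measure.map_map (eM k).symm.measurable h.measB]
    rfl
  -- total mass
  have hint : ∫ x, ρ (eM k x) = 1 := by
    rw [(measurePreserving_eM k).integral_comp' (f := eM k) ρ]
    have h1 : measOfDensity ρ univ = 1 := by
      rw [← hμ]
      exact Crest.Agent.Helper62.ts_univ ν ΦA ΦB g (tripleCostM s) u h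
    rw [integral_eq_lintegral_of_nonneg_ae (Eventually.of_forall hρ0)
      hρs.continuous.aestronglyMeasurable]
    have h2 : ∫⁻ x, ENNReal.ofReal (ρ x) = 1 := by
      unfold measOfDensity at h1
      rwa [withDensity_apply _ MeasurableSet.univ, Measure.restrict_univ] at h1
    rw [h2]
    simp
  refine Crest.Agent.Helper35.goal_of_twoShell s ν (fun p => (eM k).symm (ΦA p))
    (fun p => (eM k).symm (ΦB p)) g (fun x => u (eM k x)) h' (fun x => ρ (eM k x))
    (fun x => hρ0 _) ?_ ?_ ?_ hint hμ'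
  · exact hρs.comp L.contDiff
  · exact hρc.comp_homeomorph L.toHomeomorph
  · exact hsq.comp L.contDiff

/-- The frozen statement of S0175 (as `Goal (EuclideanSpace ℝ (Fin d)) s`) from a two-shell
instance on `MS (d - 2)` whose marginal has a smooth density. -/
theorem statement_of_geom (d : ℕ) (hd : 2 ≤ d) (s : ℝ) {Y : Type*} [MeasurableSpace Y]
    [StandardBorelSpace Y] (ν : Measure Y) [IsFiniteMeasure ν] (ΦA ΦB : Y × ℝ → MS (d - 2))
    (g : Y → ℝ) (u : MS (d - 2) → ℝ) (h : TwoShellHyp ν ΦA ΦB g (tripleCostM s) u)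
    (ρ : MS (d - 2) → ℝ) (hρ0 : ∀ x, 0 ≤ ρ x) (hρs : ContDiff ℝ ∞ ρ)
    (hρc : HasCompactSupport ρ) (hsq : ContDiff ℝ ∞ (fun x => Real.sqrt (ρ x)))
    (hμ : tsμ ν ΦA ΦB = measOfDensity ρ) :
    Crest.Agent.Helper52.OT3.Goal (EuclideanSpace ℝ (Fin d)) s :=
  Crest.Agent.Helper52.OT3.goal_of_model_complex d hd s
    (goal_of_geom s ν ΦA ΦB g u h ρ hρ0 hρs hρc hsq hμ)

end Model

end Crest.Agent.Helper44
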